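import Mathlib

/-!
Universal unital C⋆-algebras on generators and relations (in `Type`).
-/

set_option autoImplicit false
set_option linter.unusedSectionVars false

noncomputable section

namespace Crest.Agent.Lib.UnivCStar

open UniformSpace

/-! ### The completion of a C⋆-seminormed star algebra -/

section Compl

variable (F : Type) [SeminormedRing F] [StarRing F] [NormedAlgebra ℂ F] [StarModule ℂ F]
  [NormedStarGroup F]

/-- The completion, as a type synonym. -/
def Cpl : Type := Completion F

instance : NormedRing (Cpl F) := inferInstanceAs (NormedRing (Completion F))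

instance : CompleteSpace (Cpl F) := inferInstanceAs (CompleteSpace (Completion F))

instance : NormedAlgebra ℂ (Cpl F) :=
  { (inferInstance : Algebra ℂ (Completion F)) with
    norm_smul_le := fun r (x : Completion F) => norm_smul_le r x }

/-- the canonical map -/
def Cpl.of (x : F) : Cpl F := (x : Completion F)

variable {F}

theorem Cpl.induction_on {p : Cpl F → Prop} (a : Cpl F) (hp : IsClosed {a | p a})
    (ih : ∀ x : F, p (Cpl.of F x)) : p a :=
  Completion.induction_on a hp ih

theorem Cpl.induction_on₂ {p : Cpl F → Cpl F → Prop} (a b : Cpl F)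
    (hp : IsClosed {x : Cpl F × Cpl F | p x.1 x.2})
    (ih : ∀ x y : F, p (Cpl.of F x) (Cpl.of F y)) : p a b :=
  Completion.induction_on₂ a b hp ih

theorem Cpl.of_add (x y : F) : Cpl.of F (x + y) = Cpl.of F x + Cpl.of F y :=
  Completion.coe_add x y

theorem Cpl.of_mul (x y : F) : Cpl.of F (x * y) = Cpl.of F x * Cpl.of F y :=
  Completion.coe_mul x y

theorem Cpl.of_smul (c : ℂ) (x : F) : Cpl.of F (c • x) = c • Cpl.of F x :=
  Completion.coe_smul c x

theorem Cpl.of_one : Cpl.of F 1 = 1 := Completion.coe_one F

theorem Cpl.of_zero : Cpl.of F 0 = 0 := Completion.coe_zero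

theorem Cpl.norm_of (x : F) : ‖Cpl.of F x‖ = ‖x‖ := Completion.norm_coe x

instance : Star (Cpl F) := ⟨Completion.map (star : F → F)⟩

omit [NormedAlgebra ℂ F] [StarModule ℂ F] in
theorem unifCont_star : UniformContinuous (star : F → F) :=
  (star_isometry (E := F)).uniformContinuous

theorem Cpl.star_of (x : F) : star (Cpl.of F x) = Cpl.of F (star x) :=
  Completion.map_coe unifCont_star x

theorem Cpl.continuous_star : Continuous (star : Cpl F → Cpl F) :=
  Completion.continuous_map

instance : StarRing (Cpl F) where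
  star_involutive a := by
    refine Cpl.induction_on (p := fun a => star (star a) = a) a
      (isClosed_eq ((Cpl.continuous_star (F := F)).comp (Cpl.continuous_star (F := F)))
        continuous_id) ?_
    intro x
    rw [Cpl.star_of, Cpl.star_of, star_star]
  star_mul a b := by
    refine Cpl.induction_on₂ (p := fun a b => star (a * b) = star b * star a) a b
      (isClosed_eq (Cpl.continuous_star.comp (continuous_fst.mul continuous_snd))
        ((Cpl.continuous_star.comp continuous_snd).mul
          (Cpl.continuous_star.comp continuous_fst))) ?_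
    intro x y
    rw [← Cpl.of_mul, Cpl.star_of, Cpl.star_of, Cpl.star_of, star_mul, Cpl.of_mul]
  star_add a b := by
    refine Cpl.induction_on₂ (p := fun a b => star (a + b) = star a + star b) a b
      (isClosed_eq (Cpl.continuous_star.comp (continuous_fst.add continuous_snd))
        ((Cpl.continuous_star.comp continuous_fst).add
          (Cpl.continuous_star.comp continuous_snd))) ?_
    intro x y
    rw [← Cpl.of_add, Cpl.star_of, Cpl.star_of, Cpl.star_of, star_add, Cpl.of_add]

instance : StarModule ℂ (Cpl F) where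
  star_smul c a := by
    refine Cpl.induction_on (p := fun a => star (c • a) = star c • star a) a
      (isClosed_eq (Cpl.continuous_star.comp (continuous_const_smul c))
        ((continuous_const_smul _).comp Cpl.continuous_star)) ?_
    intro x
    rw [← Cpl.of_smul, Cpl.star_of, Cpl.star_of, star_smul, Cpl.of_smul]

theorem Cpl.cstarRing (h : ∀ x : F, ‖x‖ * ‖x‖ ≤ ‖star x * x‖) : CStarRing (Cpl F) where
  norm_mul_self_le a := by
    refine Cpl.induction_on (p := fun a => ‖a‖ * ‖a‖ ≤ ‖star a * a‖) a
      (isClosed_le (continuous_norm.mul continuous_norm)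
        (Cpl.continuous_star.mul continuous_id).norm) ?_
    intro x
    rw [Cpl.star_of, ← Cpl.of_mul, Cpl.norm_of, Cpl.norm_of]
    exact h x

/-- The completion of a C⋆-seminormed star algebra is a C⋆-algebra. -/
abbrev Cpl.cstarAlgebra (h : ∀ x : F, ‖x‖ * ‖x‖ ≤ ‖star x * x‖) : CStarAlgebra (Cpl F) :=
  { toCStarRing := Cpl.cstarRing h }

/-- the canonical map as a star algebra hom -/
def Cpl.ofHom : F →⋆ₐ[ℂ] Cpl F where
  toFun := Cpl.of F
  map_one' := Cpl.of_one
  map_mul' := Cpl.of_mul
  map_zero' := Cpl.of_zero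
  map_add' := Cpl.of_add
  commutes' _ := rfl
  map_star' x := (Cpl.star_of x).symm

theorem Cpl.denseRange_of : DenseRange (Cpl.of F) := Completion.denseRange_coe

/-- extension of a continuous star algebra hom -/
theorem Cpl.exists_extension {B : Type} [CStarAlgebra B] (π : F →⋆ₐ[ℂ] B) (hπ : Continuous π) :
    ∃ φ : Cpl F →⋆ₐ[ℂ] B, ∀ x, φ (Cpl.of F x) = π x := by
  let e : Cpl F →+* B := Completion.extensionHom (π : F →+* B) hπ
  have he : ∀ x, e (Cpl.of F x) = π x := fun x => Completion.extensionHom_coe (π : F →+* B) hπ x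
  have hc : Continuous e := Completion.continuous_extension
  refine ⟨{ e with
    commutes' := fun c => ?_
    map_star' := fun a => ?_ }, he⟩
  · exact (he (algebraMap ℂ F c)).trans (π.commutes c)
  · refine Cpl.induction_on (p := fun a => e (star a) = star (e a)) a
      (isClosed_eq (hc.comp Cpl.continuous_star) (hc.star)) ?_
    intro x
    rw [Cpl.star_of, he, he, map_star]

end Compl

/-! ### The free star algebra -/

/-- A ring with the conjugate complex structure. -/
def Conj (A : Type) : Type := A

instance (A : Type) [Ring A] : Ring (Conj A) := inferInstanceAs (Ring A)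

instance (A : Type) [Ring A] [Algebra ℂ A] : Algebra ℂ (Conj A) :=
  RingHom.toAlgebra' (R := ℂ) (S := Conj A)
    (((algebraMap ℂ A).comp (starRingEnd ℂ) : ℂ →+* A))
    (fun c (x : A) => Algebra.commutes (starRingEnd ℂ c) x)

/-- The free star algebra on `S`. -/
def FreeStar (S : Type) : Type := FreeAlgebra ℂ (S ⊕ S)

variable {S : Type}

instance : Ring (FreeStar S) := inferInstanceAs (Ring (FreeAlgebra ℂ (S ⊕ S)))
instance : Algebra ℂ (FreeStar S) := inferInstanceAs (Algebra ℂ (FreeAlgebra ℂ (S ⊕ S)))

/-- generators and their formal adjoints -/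
def FreeStar.gen (x : S ⊕ S) : FreeStar S := FreeAlgebra.ι ℂ x

theorem FreeStar.induction {motive : FreeStar S → Prop}
    (grade0 : ∀ r, motive (algebraMap ℂ (FreeStar S) r))
    (grade1 : ∀ x, motive (FreeStar.gen x))
    (mul : ∀ a b, motive a → motive b → motive (a * b))
    (add : ∀ a b, motive a → motive b → motive (a + b)) (a : FreeStar S) : motive a :=
  FreeAlgebra.induction ℂ (S ⊕ S) grade0 grade1 mul add a

/-- the anti-automorphism -/
def FreeStar.starHom : FreeStar S →ₐ[ℂ] Conj (FreeStar S)ᵐᵒᵖ :=
  FreeAlgebra.lift ℂ (fun x : S ⊕ S => (MulOpposite.op (FreeStar.gen x.swap) : (FreeStar S)ᵐᵒᵖ))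

instance : Star (FreeStar S) :=
  ⟨fun a => MulOpposite.unop (FreeStar.starHom a : (FreeStar S)ᵐᵒᵖ)⟩

theorem FreeStar.star_def (a : FreeStar S) :
    star a = MulOpposite.unop (FreeStar.starHom a : (FreeStar S)ᵐᵒᵖ) := rfl

theorem FreeStar.star_gen (x : S ⊕ S) : star (FreeStar.gen x) = FreeStar.gen x.swap := by
  have : FreeStar.starHom (FreeStar.gen x) =
      (MulOpposite.op (FreeStar.gen x.swap) : (FreeStar S)ᵐᵒᵖ) := FreeAlgebra.lift_ι_apply _ x
  rw [FreeStar.star_def, this]; rfl

theorem FreeStar.star_algebraMap (c : ℂ) :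
    star (algebraMap ℂ (FreeStar S) c) = algebraMap ℂ (FreeStar S) (star c) := by
  rw [FreeStar.star_def, AlgHom.commutes]; rfl

theorem FreeStar.star_mul' (a b : FreeStar S) : star (a * b) = star b * star a := by
  rw [FreeStar.star_def, map_mul]; rfl

theorem FreeStar.star_add' (a b : FreeStar S) : star (a + b) = star a + star b := by
  rw [FreeStar.star_def, map_add]; rfl

instance : StarRing (FreeStar S) where
  star_involutive a := by
    induction a using FreeStar.induction with
    | grade0 r => rw [FreeStar.star_algebraMap, FreeStar.star_algebraMap, star_star]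
    | grade1 x => rw [FreeStar.star_gen, FreeStar.star_gen, Sum.swap_swap]
    | mul a b ha hb => rw [FreeStar.star_mul', FreeStar.star_mul', ha, hb]
    | add a b ha hb => rw [FreeStar.star_add', FreeStar.star_add', ha, hb]
  star_mul := FreeStar.star_mul'
  star_add := FreeStar.star_add'

instance : StarModule ℂ (FreeStar S) where
  star_smul c a := by
    rw [Algebra.smul_def, Algebra.smul_def, star_mul, FreeStar.star_algebraMap, Algebra.commutes]

/-- the generator attached to `s` -/
def FreeStar.of (s : S) : FreeStar S := FreeStar.gen (Sum.inl s)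

section lift

variable {B : Type} [Ring B] [Algebra ℂ B] [StarRing B] [StarModule ℂ B]

/-- algebra hom version of the lift -/
def FreeStar.liftAlg (w : S → B) : FreeStar S →ₐ[ℂ] B :=
  FreeAlgebra.lift ℂ (Sum.elim w (fun s => star (w s)))

omit [StarModule ℂ B] in
theorem FreeStar.liftAlg_gen (w : S → B) (x : S ⊕ S) :
    FreeStar.liftAlg w (FreeStar.gen x) = Sum.elim w (fun s => star (w s)) x :=
  FreeAlgebra.lift_ι_apply _ x

/-- The universal property of the free star algebra. -/
def FreeStar.lift (w : S → B) : FreeStar S →⋆ₐ[ℂ] B :=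
  { FreeStar.liftAlg w with
    map_star' := fun a => by
      change FreeStar.liftAlg w (star a) = star (FreeStar.liftAlg w a)
      induction a using FreeStar.induction with
      | grade0 r =>
        rw [FreeStar.star_algebraMap, AlgHom.commutes, AlgHom.commutes, algebraMap_star_comm]
      | grade1 x =>
        rw [FreeStar.star_gen, FreeStar.liftAlg_gen, FreeStar.liftAlg_gen]
        cases x <;> simp
      | mul a b ha hb => rw [star_mul, map_mul, map_mul, ha, hb, star_mul]
      | add a b ha hb => rw [star_add, map_add, map_add, ha, hb, star_add] }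

@[simp] theorem FreeStar.lift_of (w : S → B) (s : S) : FreeStar.lift w (FreeStar.of s) = w s :=
  FreeStar.liftAlg_gen w (Sum.inl s)

theorem FreeStar.gen_inr (s : S) : FreeStar.gen (Sum.inr s) = star (FreeStar.of s) := by
  rw [FreeStar.of, FreeStar.star_gen]; rfl

theorem FreeStar.hom_ext {f g : FreeStar S →⋆ₐ[ℂ] B}
    (h : ∀ s, f (FreeStar.of s) = g (FreeStar.of s)) (a : FreeStar S) : f a = g a := by
  induction a using FreeStar.induction with
  | grade0 r => rw [AlgHomClass.commutes, AlgHomClass.commutes]
  | grade1 x =>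
    cases x with
    | inl s => exact h s
    | inr s => rw [FreeStar.gen_inr, map_star, map_star, h]
  | mul a b ha hb => rw [map_mul, map_mul, ha, hb]
  | add a b ha hb => rw [map_add, map_add, ha, hb]

theorem FreeStar.mem_adjoin (f : FreeStar S →⋆ₐ[ℂ] B) (a : FreeStar S) :
    f a ∈ StarAlgebra.adjoin ℂ (Set.range fun s => f (FreeStar.of s)) := by
  induction a using FreeStar.induction with
  | grade0 r => rw [AlgHomClass.commutes]; exact StarSubalgebra.algebraMap_mem _ r
  | grade1 x =>
    cases x with
    | inl s => exact StarAlgebra.subset_adjoin ℂ _ ⟨s, rfl⟩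
    | inr s =>
      rw [FreeStar.gen_inr, map_star]
      exact star_mem (StarAlgebra.subset_adjoin ℂ _ ⟨s, rfl⟩)
  | mul a b ha hb => rw [map_mul]; exact mul_mem ha hb
  | add a b ha hb => rw [map_add]; exact add_mem ha hb

end lift

/-! ### The universal C⋆-seminorm -/

/-- A presentation: relations that force the generators to be contractions. -/
structure Pres (S : Type) where
  /-- the relations -/
  rel : Set (FreeStar S)
  bdd : ∀ (B : Type) [CStarAlgebra B] (w : S → B), (∀ r ∈ rel, FreeStar.lift w r = 0) →
    ∀ s, ‖w s‖ ≤ 1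

/-- A model of a presentation. -/
structure Model (P : Pres S) : Type 1 where
  /-- the algebra -/
  B : Type
  [inst : CStarAlgebra B]
  /-- the images of the generators -/
  w : S → B
  sat : ∀ r ∈ P.rel, FreeStar.lift w r = 0

attribute [instance] Model.inst

variable (P : Pres S)

theorem bdd_models (a : FreeStar S) : ∃ C : ℝ, ∀ m : Model P, ‖FreeStar.lift m.w a‖ ≤ C := by
  induction a using FreeStar.induction with
  | grade0 r =>
    refine ⟨‖r‖, fun m => ?_⟩
    rw [AlgHomClass.commutes, Algebra.algebraMap_eq_smul_one, norm_smul]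
    have : ‖(1 : m.B)‖ ≤ 1 := by
      rcases subsingleton_or_nontrivial m.B with h | h
      · rw [Subsingleton.elim (1 : m.B) 0]; simp
      · simp
    nlinarith [norm_nonneg r]
  | grade1 x =>
    refine ⟨1, fun m => ?_⟩
    cases x with
    | inl s => exact (congrArg norm (FreeStar.lift_of m.w s)).trans_le (P.bdd m.B m.w m.sat s)
    | inr s =>
      rw [FreeStar.gen_inr, map_star, norm_star, FreeStar.lift_of]
      exact P.bdd m.B m.w m.sat s
  | mul a b ha hb =>
    obtain ⟨C, hC⟩ := ha
    obtain ⟨D, hD⟩ := hb
    refine ⟨C * D, fun m => ?_⟩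
    rw [map_mul]
    exact (norm_mul_le _ _).trans
      (mul_le_mul (hC m) (hD m) (norm_nonneg _) ((norm_nonneg _).trans (hC m)))
  | add a b ha hb =>
    obtain ⟨C, hC⟩ := ha
    obtain ⟨D, hD⟩ := hb
    refine ⟨C + D, fun m => ?_⟩
    rw [map_add]
    exact (norm_add_le _ _).trans (add_le_add (hC m) (hD m))

/-- the universal seminorm -/
def usn (a : FreeStar S) : ℝ := ⨆ m : Model P, ‖FreeStar.lift m.w a‖

theorem le_usn (m : Model P) (a : FreeStar S) : ‖FreeStar.lift m.w a‖ ≤ usn P a := by
  obtain ⟨C, hC⟩ := bdd_models P a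
  exact le_ciSup (f := fun m : Model P => ‖FreeStar.lift m.w a‖)
    ⟨C, by rintro _ ⟨m, rfl⟩; exact hC m⟩ m

theorem usn_nonneg (a : FreeStar S) : 0 ≤ usn P a :=
  Real.iSup_nonneg fun _ => norm_nonneg _

theorem usn_le {a : FreeStar S} {C : ℝ} (h0 : 0 ≤ C) (h : ∀ m : Model P, ‖FreeStar.lift m.w a‖ ≤ C) :
    usn P a ≤ C := Real.iSup_le h h0

theorem usn_zero : usn P 0 = 0 :=
  le_antisymm (usn_le P le_rfl fun m => by rw [map_zero, norm_zero]) (usn_nonneg P _)

theorem usn_add (a b : FreeStar S) : usn P (a + b) ≤ usn P a + usn P b :=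
  usn_le P (add_nonneg (usn_nonneg P a) (usn_nonneg P b)) fun m => by
    rw [map_add]
    exact (norm_add_le _ _).trans (add_le_add (le_usn P m a) (le_usn P m b))

theorem usn_neg (a : FreeStar S) : usn P (-a) = usn P a := by
  unfold usn
  congr 1; funext m
  rw [map_neg, norm_neg]

theorem usn_mul (a b : FreeStar S) : usn P (a * b) ≤ usn P a * usn P b :=
  usn_le P (mul_nonneg (usn_nonneg P a) (usn_nonneg P b)) fun m => by
    rw [map_mul]
    exact (norm_mul_le _ _).trans
      (mul_le_mul (le_usn P m a) (le_usn P m b) (norm_nonneg _) (usn_nonneg P a))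

theorem usn_smul (c : ℂ) (a : FreeStar S) : usn P (c • a) ≤ ‖c‖ * usn P a :=
  usn_le P (mul_nonneg (norm_nonneg c) (usn_nonneg P a)) fun m => by
    rw [map_smul, norm_smul]
    exact mul_le_mul_of_nonneg_left (le_usn P m a) (norm_nonneg c)

theorem usn_star (a : FreeStar S) : usn P (star a) ≤ usn P a :=
  usn_le P (usn_nonneg P a) fun m => by
    rw [map_star, norm_star]
    exact le_usn P m a

theorem usn_cstar (a : FreeStar S) : usn P a * usn P a ≤ usn P (star a * a) := by
  have h : usn P a ≤ Real.sqrt (usn P (star a * a)) := by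
    refine usn_le P (Real.sqrt_nonneg _) fun m => ?_
    refine Real.le_sqrt_of_sq_le ?_
    have := le_usn P m (star a * a)
    rw [map_mul, map_star, CStarRing.norm_star_mul_self] at this
    rw [sq]; exact this
  calc usn P a * usn P a ≤ Real.sqrt (usn P (star a * a)) * Real.sqrt (usn P (star a * a)) :=
        mul_le_mul h h (usn_nonneg P _) (Real.sqrt_nonneg _)
    _ = usn P (star a * a) := Real.mul_self_sqrt (usn_nonneg P _)

/-- the free star algebra with the universal seminorm -/
def Pre (_P : Pres S) : Type := FreeStar S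

instance : Ring (Pre P) := inferInstanceAs (Ring (FreeStar S))
instance : Algebra ℂ (Pre P) := inferInstanceAs (Algebra ℂ (FreeStar S))
instance : StarRing (Pre P) := inferInstanceAs (StarRing (FreeStar S))
instance : StarModule ℂ (Pre P) := inferInstanceAs (StarModule ℂ (FreeStar S))

/-- the universal seminorm as a ring seminorm -/
def usnRing : RingSeminorm (Pre P) where
  toFun a := usn P a
  map_zero' := usn_zero P
  add_le' := usn_add P
  neg' := usn_neg P
  mul_le' := usn_mul P

instance : SeminormedRing (Pre P) := (usnRing P).toSeminormedRing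

theorem Pre.norm_def (a : Pre P) : ‖a‖ = usn P a := rfl

instance : NormedAlgebra ℂ (Pre P) where
  norm_smul_le := usn_smul P

instance : NormedStarGroup (Pre P) where
  norm_star_le := usn_star P

theorem Pre.cstar (a : Pre P) : ‖a‖ * ‖a‖ ≤ ‖star a * a‖ := usn_cstar P a

/-- Existence of the universal C⋆-algebra of a presentation. -/
theorem exists_universal :
    ∃ (A : Type) (_ : CStarAlgebra A) (g : S → A), (∀ r ∈ P.rel, FreeStar.lift g r = 0) ∧
      (StarAlgebra.adjoin ℂ (Set.range g)).topologicalClosure = ⊤ ∧
      ∀ (B : Type) [CStarAlgebra B] (w : S → B), (∀ r ∈ P.rel, FreeStar.lift w r = 0) →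
        ∃ φ : A →⋆ₐ[ℂ] B, ∀ s, φ (g s) = w s := by
  let inst : CStarAlgebra (Cpl (Pre P)) := Cpl.cstarAlgebra (Pre.cstar P)
  let j : FreeStar S →⋆ₐ[ℂ] Cpl (Pre P) := Cpl.ofHom (F := Pre P)
  have hj : ∀ a, FreeStar.lift (fun s => j (FreeStar.of s)) a = j a :=
    FreeStar.hom_ext (fun s => FreeStar.lift_of _ s)
  refine ⟨Cpl (Pre P), inst, fun s => j (FreeStar.of s), fun r hr => ?_, ?_, ?_⟩
  · rw [hj, ← norm_eq_zero]
    refine (Cpl.norm_of (F := Pre P) r).trans ?_
    exact le_antisymm (usn_le P le_rfl fun m => by rw [m.sat r hr, norm_zero]) (usn_nonneg P _)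
  · rw [eq_top_iff]
    intro a _
    refine Cpl.induction_on (p := fun a => a ∈ (StarAlgebra.adjoin ℂ
      (Set.range fun s => j (FreeStar.of s))).topologicalClosure) a
      (StarSubalgebra.isClosed_topologicalClosure _) ?_
    intro x
    exact StarSubalgebra.le_topologicalClosure _ (FreeStar.mem_adjoin j x)
  · intro B _ w hw
    let π : Pre P →⋆ₐ[ℂ] B := FreeStar.lift w
    have hπ : Continuous π := by
      refine AddMonoidHomClass.continuous_of_bound π 1 fun x => ?_
      rw [one_mul]
      exact le_usn P ⟨B, w, hw⟩ x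
    obtain ⟨φ, hφ⟩ := Cpl.exists_extension π hπ
    exact ⟨φ, fun s => (hφ _).trans (FreeStar.lift_of w s)⟩

end Crest.Agent.Lib.UnivCStar
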